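import Mathlib.NumberTheory.Padics.RingHoms
import Mathlib.NumberTheory.Padics.ProperSpace
import Mathlib.Algebra.Module.Torsion.Free
import Mathlib.RingTheory.Finiteness.Basic
import Mathlib.Tactic

/-!
# P261, part F (algebra): derived `p`-complete abelian groups and `ℤ_p`-modules

* `DComp p A`: `lim` and `lim¹` of the tower `A ← A ← ⋯` (multiplication by `p`) vanish;
* `DComp.module`: a derived `p`-complete group is a `ℤ_p`-module;
* `FG p A`: the abelian group `A` is the underlying group of a finitely generated `ℤ_p`-module;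
* `DComp.fg_of_modp`: a derived `p`-complete group which is finite modulo `p` is `FG`.
-/

namespace Vale.Agent.P261.H273

/-- `A` is derived `p`-complete: `x n - p x (n+1) = a n` is uniquely solvable. -/
def DComp (p : ℕ) (A : Type*) [AddCommGroup A] : Prop :=
  ∀ a : ℕ → A, ∃! x : ℕ → A, ∀ n, x n - p • x (n + 1) = a n

/-- The abelian group `A` is the underlying group of a finitely generated module over `ℤ_p`. -/
def FG (p : ℕ) [Fact p.Prime] (A : Type*) [AddCommGroup A] : Prop :=
  ∃ m : Module ℤ_[p] A, @Module.Finite ℤ_[p] A _ _ m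

section Padic

variable (p : ℕ) [hp : Fact p.Prime]

theorem norm_p_lt_one : ‖(p : ℤ_[p])‖ < 1 := by
  rw [PadicInt.norm_p]
  exact inv_lt_one_of_one_lt₀ (by exact_mod_cast hp.out.one_lt)

theorem exists_digit (a : ℤ_[p]) : ∃ (k : ℤ) (b : ℤ_[p]), a = k + p * b := by
  obtain ⟨n, -, hn⟩ := PadicInt.exists_mem_range a
  rw [PadicInt.maximalIdeal_eq_span_p, Ideal.mem_span_singleton] at hn
  obtain ⟨b, hb⟩ := hn
  exact ⟨n, b, by rw [← hb]; push_cast; ring⟩

theorem exists_tails (a : ℤ_[p]) : ∃ (u : ℕ → ℤ_[p]) (k : ℕ → ℤ), u 0 = a ∧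
    ∀ n, u n = k n + p * u (n + 1) := by
  choose k b h using exists_digit p
  let u : ℕ → ℤ_[p] := fun n => Nat.rec (motive := fun _ => ℤ_[p]) a (fun _ x => b x) n
  exact ⟨u, fun n => k (u n), rfl, fun n => h (u n)⟩

theorem exists_solution (k : ℕ → ℤ) : ∃ u : ℕ → ℤ_[p], ∀ n, u n = k n + p * u (n + 1) := by
  have hs : ∀ n, Summable fun j : ℕ => (p : ℤ_[p]) ^ j * (k (n + j) : ℤ_[p]) := by
    intro n
    have h1 : ‖(p : ℤ_[p])‖ < 1 := norm_p_lt_one p
    refine Summable.of_norm_bounded (g := fun j : ℕ => ‖(p : ℤ_[p])‖ ^ j)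
      (summable_geometric_of_lt_one (norm_nonneg _) h1) fun j => ?_
    rw [norm_mul, norm_pow]
    exact mul_le_of_le_one_right (pow_nonneg (norm_nonneg _) _) (PadicInt.norm_le_one _)
  refine ⟨fun n => ∑' j : ℕ, (p : ℤ_[p]) ^ j * (k (n + j) : ℤ_[p]), fun n => ?_⟩
  dsimp only
  rw [(hs n).tsum_eq_zero_add, ← (hs (n + 1)).tsum_mul_left]
  simp only [pow_zero, one_mul, Nat.add_zero, add_right_inj]
  refine tsum_congr fun j => ?_
  rw [pow_succ, show n + (j + 1) = n + 1 + j by ring]
  ring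

end Padic

variable {p : ℕ} [hp : Fact p.Prime] {A : Type*} [AddCommGroup A]

omit hp in
theorem DComp.eq_zero (hA : DComp p A) {x : ℕ → A} (hx : ∀ n, x n = p • x (n + 1)) (n : ℕ) :
    x n = 0 := by
  obtain ⟨y, -, hy⟩ := hA (fun _ => 0)
  have h1 := hy x (fun n => by rw [← hx n, sub_self])
  have h2 := hy (fun _ => 0) (fun n => by simp)
  rw [h1, ← h2]

/-- `y = a x`, where `a : ℤ_p` is expanded in powers of `p`. -/
def Rep (x : A) (a : ℤ_[p]) (y : A) : Prop :=
  ∃ (u : ℕ → ℤ_[p]) (k : ℕ → ℤ) (w : ℕ → A), u 0 = a ∧ w 0 = y ∧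
    (∀ n, u n = k n + p * u (n + 1)) ∧ ∀ n, w n = k n • x + p • w (n + 1)

theorem Rep.exists (hA : DComp p A) (x : A) (a : ℤ_[p]) : ∃ y, Rep x a y := by
  obtain ⟨u, k, h0, h⟩ := exists_tails p a
  obtain ⟨w, hw, -⟩ := hA (fun n => k n • x)
  exact ⟨w 0, u, k, w, h0, rfl, h, fun n => by rw [← hw n]; abel⟩

theorem Rep.add {x : A} {a b : ℤ_[p]} {y z : A} (h : Rep x a y) (h' : Rep x b z) :
    Rep x (a + b) (y + z) := by
  obtain ⟨u, k, w, h0, h1, h2, h3⟩ := h
  obtain ⟨u', k', w', h0', h1', h2', h3'⟩ := h'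
  refine ⟨fun n => u n + u' n, fun n => k n + k' n, fun n => w n + w' n, by simp [h0, h0'],
    by simp [h1, h1'], fun n => ?_, fun n => ?_⟩
  · dsimp only
    rw [h2 n, h2' n]
    push_cast
    ring
  · dsimp only
    rw [h3 n, h3' n, add_smul, smul_add]
    abel

theorem Rep.neg {x : A} {a : ℤ_[p]} {y : A} (h : Rep x a y) :
    Rep x (-a) (-y) := by
  obtain ⟨u, k, w, h0, h1, h2, h3⟩ := h
  refine ⟨fun n => - u n, fun n => - k n, fun n => - w n, by simp [h0],
    by simp [h1], fun n => ?_, fun n => ?_⟩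
  · dsimp only
    rw [h2 n]
    push_cast
    ring
  · dsimp only
    rw [h3 n, neg_smul, smul_neg]
    abel

theorem Rep.eq_zero (hA : DComp p A) {x : A} {y : A} (h : Rep x (0 : ℤ_[p]) y) : y = 0 := by
  obtain ⟨u, k, w, h0, h1, h2, h3⟩ := h
  have hp0 : (p : ℤ_[p]) ≠ 0 := by exact_mod_cast hp.out.ne_zero
  have key : ∀ n, ∀ c : ℤ, u n = c → ∃ d : ℤ, u (n + 1) = d ∧ c = k n + p * d := by
    intro n c hc
    have h4 : ((c - k n : ℤ) : ℤ_[p]) = p * u (n + 1) := by
      push_cast
      rw [← hc, h2 n]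
      ring
    have h5 : (p : ℤ) ∣ c - k n := by
      have : ((p : ℕ) : ℤ_[p]) ∣ ((c - k n : ℤ) : ℤ_[p]) := ⟨_, h4⟩
      have h6 := PadicInt.norm_int_lt_one_iff_dvd (p := p) (c - k n)
      rw [← h6, h4, norm_mul]
      have h7 : ‖(p : ℤ_[p])‖ < 1 := norm_p_lt_one p
      calc ‖(p : ℤ_[p])‖ * ‖u (n + 1)‖ ≤ ‖(p : ℤ_[p])‖ * 1 :=
            mul_le_mul_of_nonneg_left (PadicInt.norm_le_one _) (norm_nonneg _)
        _ < 1 := by rwa [mul_one]
    obtain ⟨d, hd⟩ := h5
    refine ⟨d, ?_, by rw [← hd]; ring⟩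
    rw [hd] at h4
    push_cast at h4
    exact (mul_left_cancel₀ hp0 h4).symm
  choose g hg1 hg2 using key
  let c : ∀ n, {c : ℤ // u n = c} := fun n => Nat.rec (motive := fun n => {c : ℤ // u n = c})
    ⟨0, by rw [h0]; simp⟩ (fun n c => ⟨g n c.1 c.2, hg1 n c.1 c.2⟩) n
  have hc : ∀ n, (c n).1 = k n + p * (c (n + 1)).1 := fun n => hg2 n (c n).1 (c n).2
  have hz : ∀ n, w n - (c n).1 • x = p • (w (n + 1) - (c (n + 1)).1 • x) := by
    intro n
    rw [h3 n, hc n, smul_sub, add_smul, mul_smul, natCast_zsmul]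
    abel
  have h8 := hA.eq_zero hz 0
  have h9 : (c 0).1 = 0 := rfl
  rw [h9, zero_smul, sub_zero, h1] at h8
  exact h8

theorem Rep.unique (hA : DComp p A) {x : A} {a : ℤ_[p]} {y z : A} (h : Rep x a y)
    (h' : Rep x a z) : y = z := by
  have h1 := h.add h'.neg
  rw [add_neg_cancel] at h1
  have := h1.eq_zero hA
  rwa [← sub_eq_add_neg, sub_eq_zero] at this

/-- The homomorphism `a ↦ a x`. -/
noncomputable def DComp.act (hA : DComp p A) (x : A) : ℤ_[p] →+ A :=
  AddMonoidHom.mk' (fun a => (Rep.exists hA x a).choose) fun a b =>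
    (Rep.exists hA x (a + b)).choose_spec.unique hA
      ((Rep.exists hA x a).choose_spec.add (Rep.exists hA x b).choose_spec)

theorem DComp.rep_act (hA : DComp p A) (x : A) (a : ℤ_[p]) : Rep x a (hA.act x a) :=
  (Rep.exists hA x a).choose_spec

theorem DComp.act_one (hA : DComp p A) (x : A) : hA.act x 1 = x :=
  (hA.rep_act x 1).unique hA ⟨fun n => if n = 0 then 1 else 0, fun n => if n = 0 then 1 else 0,
    fun n => if n = 0 then x else 0, by simp, by simp, fun n => by
      rcases Nat.eq_zero_or_pos n with rfl | h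
      · simp
      · simp [h.ne'], fun n => by
      rcases Nat.eq_zero_or_pos n with rfl | h
      · simp
      · simp [h.ne']⟩

/-- A homomorphism `ℤ_p → A` is determined by its value at `1`. -/
theorem DComp.hom_eq_zero (hA : DComp p A) (g : ℤ_[p] →+ A) (h1 : g 1 = 0) : g = 0 := by
  have hk : ∀ k : ℤ, g k = 0 := by
    intro k
    have : (k : ℤ_[p]) = k • (1 : ℤ_[p]) := by simp
    rw [this, map_zsmul, h1, smul_zero]
  ext a
  obtain ⟨u, k, h0, h⟩ := exists_tails p a
  have h2 := hA.eq_zero (x := fun n => g (u n)) (fun n => by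
    rw [h n, map_add, hk, zero_add, ← map_nsmul, nsmul_eq_mul]) 0
  rw [h0] at h2
  rw [h2]
  rfl

theorem DComp.hom_ext (hA : DComp p A) {g g' : ℤ_[p] →+ A} (h1 : g 1 = g' 1) : g = g' := by
  rw [← sub_eq_zero]
  exact hA.hom_eq_zero _ (by rw [AddMonoidHom.sub_apply, h1, sub_self])

/-- A derived `p`-complete group is a `ℤ_p`-module. -/
@[reducible]
noncomputable def DComp.module (hA : DComp p A) : Module ℤ_[p] A where
  smul a x := hA.act x a
  one_smul x := hA.act_one x
  mul_smul a b x := by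
    change hA.act x (a * b) = hA.act (hA.act x b) a
    have : (hA.act x).comp (AddMonoidHom.mulRight b) = hA.act (hA.act x b) :=
      hA.hom_ext (by
        rw [hA.act_one]
        change hA.act x (1 * b) = _
        rw [one_mul])
    exact DFunLike.congr_fun this a
  smul_zero a := by
    change hA.act 0 a = 0
    have : hA.act 0 = 0 := hA.hom_ext (by rw [hA.act_one]; rfl)
    rw [this]; rfl
  smul_add a x y := by
    change hA.act (x + y) a = hA.act x a + hA.act y a
    have : hA.act (x + y) = hA.act x + hA.act y :=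
      hA.hom_ext (by rw [AddMonoidHom.add_apply, hA.act_one, hA.act_one, hA.act_one])
    rw [this]; rfl
  add_smul a b x := map_add (hA.act x) a b
  zero_smul x := map_zero (hA.act x)

omit hp in
/-- `A` is finite modulo `p`. -/
def FinMod (p : ℕ) (A : Type*) [AddCommGroup A] : Prop :=
  ∃ s : Finset A, ∀ x : A, ∃ y ∈ s, ∃ z : A, x = y + p • z

/-- A derived `p`-complete group which is finite modulo `p` is a finitely generated
`ℤ_p`-module. -/
theorem DComp.fg (hA : DComp p A) (hf : FinMod p A) : FG p A := by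
  classical
  obtain ⟨s, hs⟩ := hf
  choose f hf g hg using hs
  let m : Module ℤ_[p] A := hA.module
  refine ⟨m, ?_⟩
  rw [Module.finite_def]
  refine ⟨s, ?_⟩
  rw [eq_top_iff]
  rintro z -
  let zz : ℕ → A := fun n => Nat.rec (motive := fun _ => A) z (fun _ x => g x) n
  have hzz : ∀ n, zz n = f (zz n) + p • zz (n + 1) := fun n => hg (zz n)
  choose u hu using fun y : A => exists_solution p (fun n => if f (zz n) = y then 1 else 0)
  have h1 : ∀ n, zz n - ∑ y ∈ s, u y n • y =
      p • (zz (n + 1) - ∑ y ∈ s, u y (n + 1) • y) := by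
    intro n
    have h2 : ∑ y ∈ s, u y n • y = f (zz n) + p • ∑ y ∈ s, u y (n + 1) • y := by
      have h5 : ∀ y ∈ s, u y n • y = (if f (zz n) = y then y else 0) + p • (u y (n + 1) • y) := by
        intro y _
        rw [hu y n, add_smul, mul_smul]
        congr 1
        · split_ifs with h6
          · simp
          · simp
        · exact Nat.cast_smul_eq_nsmul _ _ _
      rw [Finset.sum_congr rfl h5, Finset.sum_add_distrib, Finset.sum_ite_eq s (f (zz n)) (fun y => y),
        if_pos (hf _), Finset.smul_sum]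
    rw [h2, smul_sub]
    nth_rewrite 1 [hzz n]
    abel
  have h3 := hA.eq_zero h1 0
  have h4 : z = ∑ y ∈ s, u y 0 • y := by
    rw [sub_eq_zero] at h3
    exact h3
  rw [h4]
  exact Submodule.sum_mem _ fun y hy => Submodule.smul_mem _ _ (Submodule.subset_span hy)

end Vale.Agent.P261.H273
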