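import Vale.Agent.P261.H273.Alg

/-!
# P261, part F (algebra): finitely generated `ℤ_p`-modules modulo `p`

* `FG.finMod`: a finitely generated `ℤ_p`-module is finite modulo `p`;
* `FG.finite_torsion`: its `p`-torsion is finite;
* `FG.congr`: transport along isomorphisms of abelian groups;
* `finMod_of_exact`, `finite_of_exact`: exact sequences.
-/

namespace Vale.Agent.P261.H273

variable {p : ℕ} [hp : Fact p.Prime] {A B C : Type*} [AddCommGroup A] [AddCommGroup B]
  [AddCommGroup C]

theorem finMod_of_module [Module ℤ_[p] A] [Module.Finite ℤ_[p] A] : FinMod p A := by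
  classical
  obtain ⟨n, f, hf⟩ := Module.Finite.exists_fin' ℤ_[p] A
  refine ⟨Finset.univ.image fun k : Fin n → Fin p => f fun i => ((k i : ℕ) : ℤ_[p]), fun x => ?_⟩
  obtain ⟨a, rfl⟩ := hf x
  have hd : ∀ i, ∃ (k : Fin p) (b : ℤ_[p]), a i = ((k : ℕ) : ℤ_[p]) + p • b := by
    intro i
    obtain ⟨k, hk, hb⟩ := PadicInt.exists_mem_range (a i)
    rw [PadicInt.maximalIdeal_eq_span_p, Ideal.mem_span_singleton] at hb
    obtain ⟨b, hb⟩ := hb
    exact ⟨⟨k, hk⟩, b, by rw [nsmul_eq_mul, ← hb]; ring⟩
  choose k b hkb using hd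
  refine ⟨f fun i => ((k i : ℕ) : ℤ_[p]), Finset.mem_image_of_mem _ (Finset.mem_univ k), f b, ?_⟩
  rw [← map_nsmul, ← map_add]
  exact congrArg f (funext hkb)

theorem FG.finMod (h : FG p A) : FinMod p A := by
  obtain ⟨m, hm⟩ := h
  exact finMod_of_module

omit hp in
theorem FinMod.finite_of_torsion (h : FinMod p A) (h0 : ∀ x : A, p • x = 0) : Finite A := by
  obtain ⟨s, hs⟩ := h
  refine Set.finite_univ_iff.mp ((s.finite_toSet).subset fun x _ => ?_)
  obtain ⟨y, hy, z, hz⟩ := hs x
  rw [h0, add_zero] at hz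
  rw [hz]
  exact hy

/-- The `p`-torsion of a finitely generated `ℤ_p`-module is finite. -/
theorem FG.finite_torsion (h : FG p A) : {x : A | p • x = 0}.Finite := by
  obtain ⟨m, hm⟩ := h
  let N : Submodule ℤ_[p] A :=
    { carrier := {x | p • x = 0}
      add_mem' := by
        intro a b ha hb
        change p • (a + b) = 0
        change p • a = 0 at ha
        change p • b = 0 at hb
        rw [smul_add, ha, hb, add_zero]
      zero_mem' := smul_zero _
      smul_mem' := by
        intro c x hx
        change p • (c • x) = 0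
        change p • x = 0 at hx
        rw [smul_comm, hx, smul_zero] }
  have h1 : Module.Finite ℤ_[p] N := inferInstance
  have h2 : Finite N := (finMod_of_module (p := p) (A := N)).finite_of_torsion fun x =>
    Subtype.ext x.2
  exact Set.toFinite (N : Set A)

theorem FG.congr (e : A ≃+ B) (h : FG p A) : FG p B := by
  obtain ⟨m, hm⟩ := h
  let m' : Module ℤ_[p] B := e.symm.module ℤ_[p]
  refine ⟨m', ?_⟩
  let f : A →ₗ[ℤ_[p]] B :=
    { toFun := e
      map_add' := map_add e
      map_smul' := fun c x => by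
        change e (c • x) = e (c • e.symm (e x))
        rw [e.symm_apply_apply] }
  exact Module.Finite.of_surjective f e.surjective

omit hp in
/-- If `A -i→ B` has kernel `p A` and `B` is finite then `A` is finite modulo `p`. -/
theorem finMod_of_exact [Finite B] (i : A →+ B) (h : ∀ x, i x = 0 → ∃ z, x = p • z) :
    FinMod p A := by
  classical
  have hr : (Set.range i).Finite := Set.toFinite _
  choose! g hg using fun (y : B) (hy : y ∈ Set.range i) => hy
  refine ⟨hr.toFinset.image g, fun x => ?_⟩
  have hx : i x ∈ Set.range i := ⟨x, rfl⟩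
  obtain ⟨z, hz⟩ := h (x - g (i x)) (by rw [map_sub, hg _ hx, sub_self])
  exact ⟨g (i x), Finset.mem_image_of_mem _ (hr.mem_toFinset.2 hx), z, by rw [← hz]; abel⟩

omit hp in
/-- If `A -i→ B -j→ C` is exact, `i` kills `p A`, `A` is finite modulo `p` and the image of `j` is
finite then `B` is finite. -/
theorem finite_of_exact (hA : FinMod p A) (i : A →+ B) (j : B →+ C) (hi : ∀ x, i (p • x) = 0)
    (hex : ∀ y, j y = 0 → ∃ x, i x = y) (hj : (Set.range j).Finite) : Finite B := by
  classical
  obtain ⟨s, hs⟩ := hA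
  choose! g hg using fun (y : C) (hy : y ∈ Set.range j) => hy
  refine Set.finite_univ_iff.mp
    (((s.finite_toSet.image i).prod (hj.image g)).image (fun q => q.1 + q.2) |>.subset
      fun y _ => ?_)
  have hy : j y ∈ Set.range j := ⟨y, rfl⟩
  obtain ⟨x, hx⟩ := hex (y - g (j y)) (by rw [map_sub, hg _ hy, sub_self])
  obtain ⟨x', hx', z, hz⟩ := hs x
  refine ⟨(i x', g (j y)), ⟨⟨x', hx', rfl⟩, ⟨j y, hy, rfl⟩⟩, ?_⟩
  rw [hz, map_add, hi, add_zero] at hx
  simp only
  rw [hx]
  abel

end Vale.Agent.P261.H273
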