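import Vale.Agent.P251.S.Local
import Vale.Agent.P251.S.LocMod
import Vale.Agent.P251.S.ModP
import Vale.Agent.P261.H273.Alg2

/-!
# P261, part F (triangulated): homotopy of local objects is derived `p`-complete

* `dcomp_of_isLocal`: if `p ^ m = 0` on `K` and `N` is `K`-local, then `Hom (W, N)` is derived
  `p`-complete;
* `finMod_of_tri`, `finite_of_tri`: the triangle `Z -p→ Z → D`;
* `fg_of_finite`, `finite_of_fg`: `Hom (W, L X)` is a finitely generated `ℤ_p`-module if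
  `Hom (W, L (X ⊗ C))` is finite, `C = S/p`, and conversely.
-/

open CategoryTheory MonoidalCategory Limits Pretriangulated

set_option linter.unusedSectionVars false

universe v u

namespace Vale.Agent.P261.H273

open Vale.Agent.P251.T Vale.Agent.P251.S

section hom

variable {T : Type u} [Category.{v} T] [Preadditive T]

theorem dcomp_of_solution {p : ℕ} {W N : T}
    (hu : ∀ x : ℕ → (W ⟶ N), (∀ n, x n = ((p : ℤ) • 𝟙 W) ≫ x (n + 1)) → ∀ n, x n = 0)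
    (he : ∀ a : ℕ → (W ⟶ N), ∃ x : ℕ → (W ⟶ N), ∀ n, x n - ((p : ℤ) • 𝟙 W) ≫ x (n + 1) = a n) :
    DComp p (W ⟶ N) := by
  have hs : ∀ x : W ⟶ N, ((p : ℤ) • 𝟙 W) ≫ x = p • x := fun x => by
    rw [Preadditive.zsmul_comp, Category.id_comp, natCast_zsmul]
  intro a
  obtain ⟨x, hx⟩ := he a
  refine ⟨x, fun n => by rw [← hs]; exact hx n, fun y hy => ?_⟩
  funext n
  have h1 := hu (fun n => y n - x n) (fun n => by
    have h2 := hy n
    have h3 := hx n
    rw [← hs] at h2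
    rw [Preadditive.comp_sub]
    rw [← h3, sub_eq_sub_iff_sub_eq_sub] at h2
    exact h2) n
  exact sub_eq_zero.1 h1

end hom

section main

variable {T : Type u} [Category.{v} T] [Preadditive T] [HasZeroObject T] [HasShift T ℤ]
  [∀ n : ℤ, (shiftFunctor T n).Additive] [Pretriangulated T]
  [MonoidalCategory T] [SymmetricCategory T] [TensorTriangulated T] [MonoidalClosed T]
  [HasCoproducts.{0} T]

/-- If `p` is nilpotent on `K` then the homotopy of a `K`-local object is derived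
`p`-complete. -/
theorem dcomp_of_isLocal {K N : T} (hN : IsLocal K N) {p m : ℕ}
    (hK : ((p : ℤ) ^ m) • 𝟙 K = 0) (W : T) : DComp p (W ⟶ N) := by
  obtain ⟨U⟩ := exists_tel (X := fun _ : ℕ => W) (fun _ => (p : ℤ) • 𝟙 W)
  have hU : Acyclic K U.obj := by
    have hw : K ◁ ((p : ℤ) • 𝟙 W) = (p : ℤ) • 𝟙 (K ⊗ W) :=
      ((tensorLeft K).map_zsmul).trans (congrArg _ (MonoidalCategory.whiskerLeft_id _ _))
    have hpow : ∀ j : ℕ, itr ((p : ℤ) • 𝟙 (K ⊗ W)) j = ((p : ℤ) ^ j) • 𝟙 (K ⊗ W) := by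
      intro j
      induction j with
      | zero => rw [itr_zero, pow_zero, one_smul]
      | succ j ih =>
        rw [itr_succ, ih, pow_succ, Preadditive.zsmul_comp, Preadditive.comp_zsmul,
          Category.id_comp, smul_smul]
    have h0 : ((p : ℤ) ^ m) • 𝟙 (K ⊗ W) = 0 := by
      have h1 : (((p : ℤ) ^ m) • 𝟙 K) ▷ W = ((p : ℤ) ^ m) • 𝟙 (K ⊗ W) :=
        ((tensorRight W).map_zsmul).trans (congrArg _ (MonoidalCategory.id_whiskerRight _ _))
      rw [← h1, hK]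
      exact MonoidalPreadditive.zero_whiskerRight
    refine (U.tensL K).isZero_of_proZero fun n => ⟨m, ?_⟩
    rw [trT_const, hw, hpow, h0]
  exact dcomp_of_solution (fun x hx n => hN.eq_zero_of_compat U hU x hx n)
    (fun a => hN.exists_solution U hU a)

omit [MonoidalCategory T] [SymmetricCategory T] [TensorTriangulated T] [MonoidalClosed T]
  [HasCoproducts.{0} T]

/-- `Z -p→ Z → D` distinguished, `Hom (W, D)` finite: `Hom (W, Z)` is finite modulo `p`. -/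
theorem finMod_of_tri {Z D : T} {p : ℕ} {i : Z ⟶ D} {δ : D ⟶ Z⟦(1 : ℤ)⟧}
    (h : Triangle.mk ((p : ℤ) • 𝟙 Z) i δ ∈ distTriang T) (W : T) [Finite (W ⟶ D)] :
    FinMod p (W ⟶ Z) := by
  refine finMod_of_exact (Preadditive.rightComp W i) fun x hx => ?_
  obtain ⟨g, hg⟩ : ∃ g : W ⟶ Z, x = g ≫ ((p : ℤ) • 𝟙 Z) :=
    Triangle.coyoneda_exact₂ _ h x hx
  exact ⟨g, by rw [hg, Preadditive.comp_zsmul, Category.comp_id, natCast_zsmul]⟩

/-- `Z -p→ Z → D` distinguished: `Hom (W, D)` is finite if `Hom (W, Z)` is finite modulo `p` and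
`Hom (W, Z⟦1⟧)` has finite `p`-torsion. -/
theorem finite_of_tri {Z D : T} {p : ℕ} {i : Z ⟶ D} {δ : D ⟶ Z⟦(1 : ℤ)⟧}
    (h : Triangle.mk ((p : ℤ) • 𝟙 Z) i δ ∈ distTriang T) (W : T) (h0 : FinMod p (W ⟶ Z))
    (h1 : {x : W ⟶ Z⟦(1 : ℤ)⟧ | p • x = 0}.Finite) : Finite (W ⟶ D) := by
  refine finite_of_exact h0 (Preadditive.rightComp W i) (Preadditive.rightComp W δ) (fun x => ?_)
    (fun y hy => ?_) (h1.subset ?_)
  · have h2 := comp_distTriang_mor_zero₁₂ _ h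
    change ((p : ℤ) • 𝟙 Z) ≫ i = 0 at h2
    change (p • x) ≫ i = 0
    have h3 : p • x = x ≫ ((p : ℤ) • 𝟙 Z) := by
      rw [Preadditive.comp_zsmul, Category.comp_id, natCast_zsmul]
    rw [h3, Category.assoc, h2, comp_zero]
  · obtain ⟨g, hg⟩ : ∃ g : W ⟶ Z, y = g ≫ i := Triangle.coyoneda_exact₃ _ h y hy
    exact ⟨g, hg.symm⟩
  · rintro _ ⟨y, rfl⟩
    have h2 := comp_distTriang_mor_zero₃₁ _ h
    change δ ≫ ((p : ℤ) • 𝟙 Z)⟦(1 : ℤ)⟧' = 0 at h2
    rw [Functor.map_zsmul, CategoryTheory.Functor.map_id, Preadditive.comp_zsmul,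
      Category.comp_id, natCast_zsmul] at h2
    change p • (y ≫ δ) = 0
    rw [← Preadditive.comp_nsmul, h2, comp_zero]

variable [MonoidalCategory T] [SymmetricCategory T] [TensorTriangulated T] [MonoidalClosed T]
  [HasCoproducts.{0} T]

/-- The triangle `L X -n→ L X → L (X ⊗ C)`. -/
theorem exists_tri_loc {K C : T} (F : LocFunctor K) {n : ℤ} {i : 𝟙_ T ⟶ C}
    {δ : C ⟶ (𝟙_ T)⟦(1 : ℤ)⟧} (hC : Triangle.mk (n • 𝟙 (𝟙_ T)) i δ ∈ distTriang T) (X : T) :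
    ∃ d : F.L.obj (X ⊗ C) ⟶ (F.L.obj X)⟦(1 : ℤ)⟧,
      Triangle.mk (n • 𝟙 (F.L.obj X)) (F.L.map ((redC i).app X)) d ∈ distTriang T := by
  have h := F.L.map_distinguished _ (redTri_distinguished hC X)
  refine ⟨F.L.map (bdC δ X) ≫ (F.L.commShiftIso (1 : ℤ)).hom.app X, ?_⟩
  have h1 : F.L.map (n • 𝟙 X) = n • 𝟙 (F.L.obj X) := by
    rw [F.L.map_zsmul, F.L.map_id]
  rw [← h1]
  exact h

variable {K C : T} (F : LocFunctor K) {p : ℕ} [Fact p.Prime] {i : 𝟙_ T ⟶ C}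
    {δ : C ⟶ (𝟙_ T)⟦(1 : ℤ)⟧} (hC : Triangle.mk ((p : ℤ) • 𝟙 (𝟙_ T)) i δ ∈ distTriang T)
    {m : ℕ} (hK : ((p : ℤ) ^ m) • 𝟙 K = 0) (X W : T)

include hC hK

/-- If `Hom (W, L (X ⊗ S/p))` is finite then `Hom (W, L X)` is a finitely generated
`ℤ_p`-module. -/
theorem fg_of_finite (h : Finite (W ⟶ F.L.obj (X ⊗ C))) : FG p (W ⟶ F.L.obj X) := by
  obtain ⟨d, hd⟩ := exists_tri_loc F hC X
  have : Finite (W ⟶ F.L.obj ((tensorRight C).obj X)) := h
  exact (dcomp_of_isLocal (F.isLocal X) hK W).fg (finMod_of_tri hd W)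

omit hK

/-- Conversely, if `Hom (W, L X)` and `Hom (W, (L X)⟦1⟧)` are finitely generated `ℤ_p`-modules then
`Hom (W, L (X ⊗ S/p))` is finite. -/
theorem finite_of_fg (h : FG p (W ⟶ F.L.obj X)) (h' : FG p (W ⟶ (F.L.obj X)⟦(1 : ℤ)⟧)) :
    Finite (W ⟶ F.L.obj (X ⊗ C)) := by
  obtain ⟨d, hd⟩ := exists_tri_loc F hC X
  exact finite_of_tri hd W h.finMod h'.finite_torsion

end main

end Vale.Agent.P261.H273
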