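import Vale.Agent.P251.St.Result2
import Vale.Agent.P251.X.KExists
import Vale.Agent.P251.Z.Final
import Vale.Agent.P251.M.BGlueD
import Vale.Agent.P261.H273.Tri

/-!
# P261: from the statement layer of P251 to the library

`exists_model`: for a Morava `K`-theory `R` of height `n ≥ 1` at an odd prime `p` and the
`R`-localization `Z` of the sphere, the data of the library (`MU`, the Koszul object of height `n`,
its localization functor `L`, the comparison of the cobar complex of `L (- ⊗ S/p)` with the towers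
`towerN p n w`), together with

* if `Hom (S^t, L (S/p))` is finite then `π_t Z` is a finitely generated `ℤ_p`-module;
* conversely, if `π_t Z` and `π_{t-1} Z` are finitely generated then `Hom (S^t, L (S/p))` is finite;
* if `Hom (S^t, L (S/p)) = 0` then `π_t Z = 0`.
-/

open CategoryTheory MonoidalCategory Limits Pretriangulated MonObj

set_option linter.unusedSectionVars false

universe v u

namespace Vale.Agent.P261.H273

open Vale.Agent.P251 Vale.Agent.P251.T Vale.Agent.P251.S Vale.Agent.P251.I Vale.Agent.P251.M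

section ring

variable {T : Type u} [Category.{v} T] [Preadditive T] [HasZeroObject T] [HasShift T ℤ]
  [∀ n : ℤ, (shiftFunctor T n).Additive] [Pretriangulated T]
  [MonoidalCategory T] [SymmetricCategory T] [TensorTriangulated T]

/-- `p` is zero on a ring spectrum in which `p = 0`. -/
theorem zsmul_id_of_unit {R : T} [MonObj R] {p : ℤ} (h : p • η[R] = 0) : p • 𝟙 R = 0 := by
  have h1 : 𝟙 R = (λ_ R).inv ≫ η[R] ▷ R ≫ μ[R] := by
    rw [MonObj.one_mul, Iso.inv_hom_id]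
  have h2 : p • (η[R] ▷ R) = 0 := by
    have h3 : (p • η[R]) ▷ R = p • (η[R] ▷ R) := (tensorRight R).map_zsmul
    rw [← h3, h]
    exact MonoidalPreadditive.zero_whiskerRight
  rw [h1, ← Preadditive.comp_zsmul, ← Preadditive.zsmul_comp, h2, zero_comp, comp_zero]

end ring

section loc

variable {T : Type u} [Category.{v} T] [Preadditive T] [HasZeroObject T] [HasShift T ℤ]
  [∀ n : ℤ, (shiftFunctor T n).Additive] [Pretriangulated T]
  [MonoidalCategory T] [SymmetricCategory T] [TensorTriangulated T] [MonoidalClosed T]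
  [HasCoproducts.{0} T]

/-- Localizations with respect to objects with the same acyclics agree. -/
theorem exists_iso_of_isLoc {K K' : T} (F : LocFunctor K) (h1 : ∀ W : T, Acyclic K W → Acyclic K' W)
    (h2 : ∀ W : T, Acyclic K' W → Acyclic K W) {X Z : T} {z : X ⟶ Z} (hz : Vale.Agent.P251.Z.IsLoc K' z) :
    Nonempty (F.L.obj X ≅ Z) := by
  have hZ : IsLocal K Z := Vale.Agent.P251.Z.isLocal_mono h1 hz.2
  have hzK : KEq K z := by
    obtain ⟨C, g, w, hC⟩ := distinguished_cocone_triangle z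
    exact (acyclic₃_iff_isIso₁ hC).1 (h2 _ ((acyclic₃_iff_isIso₁ hC).2 hz.1))
  let g : F.L.obj X ⟶ Z := F.desc hZ z
  have hg : F.u X ≫ g = z := F.u_desc hZ z
  have h3 : KEq K g := (F.keq X).of_comp_left (by rw [hg]; exact hzK)
  have h4 : IsIso g := isIso_of_isLocal (F.isLocal X) hZ g h3
  exact ⟨asIso g⟩

variable {K C : T} (F : LocFunctor K) {p : ℕ} [Fact p.Prime] {i : 𝟙_ T ⟶ C}
    {δ : C ⟶ (𝟙_ T)⟦(1 : ℤ)⟧} (hC : Triangle.mk ((p : ℤ) • 𝟙 (𝟙_ T)) i δ ∈ distTriang T)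
    {K' : T} (hK : (p : ℤ) • 𝟙 K' = 0) {X Z : T} (e : F.L.obj X ≅ Z) (hZ : IsLocal K' Z)

include hC hK hZ e

theorem fg_of_finite_iso (W : T) (h : Finite (W ⟶ F.L.obj (X ⊗ C))) : FG p (W ⟶ Z) := by
  obtain ⟨d, hd⟩ := exists_tri_loc F hC X
  have : Finite (W ⟶ F.L.obj ((tensorRight C).obj X)) := h
  have h1 : DComp p (W ⟶ F.L.obj X) :=
    dcomp_of_isLocal (hZ.of_iso e.symm) (m := 1) (by rw [pow_one]; exact hK) W
  exact (h1.fg (finMod_of_tri hd W)).congr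
    { toFun := fun f => f ≫ e.hom
      invFun := fun f => f ≫ e.inv
      left_inv := fun f => by simp
      right_inv := fun f => by simp
      map_add' := fun f g => by simp }

theorem eq_zero_iso (W : T) (h : ∀ x : W ⟶ F.L.obj (X ⊗ C), x = 0) (x : W ⟶ Z) : x = 0 := by
  obtain ⟨d, hd⟩ := exists_tri_loc F hC X
  have h1 : DComp p (W ⟶ F.L.obj X) :=
    dcomp_of_isLocal (hZ.of_iso e.symm) (m := 1) (by rw [pow_one]; exact hK) W
  have h2 : ∀ y : W ⟶ F.L.obj X, ∃ z : W ⟶ F.L.obj X, y = p • z := by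
    intro y
    obtain ⟨g, hg⟩ : ∃ g : W ⟶ F.L.obj X, y = g ≫ ((p : ℤ) • 𝟙 (F.L.obj X)) :=
      Triangle.coyoneda_exact₂ _ hd y (h _)
    exact ⟨g, by rw [hg, Preadditive.comp_zsmul, Category.comp_id, natCast_zsmul]⟩
  choose g hg using h2
  let s : ℕ → (W ⟶ F.L.obj X) := fun k => Nat.rec (x ≫ e.inv) (fun _ y => g y) k
  have h3 : x ≫ e.inv = 0 := h1.eq_zero (x := s) (fun k => hg (s k)) 0
  rw [← Category.comp_id x, ← e.inv_hom_id, ← Category.assoc, h3, zero_comp]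

omit hK hZ

theorem finite_of_fg_iso (t : ℤ) (h : FG p ((𝟙_ T)⟦t⟧ ⟶ Z)) (h' : FG p ((𝟙_ T)⟦t - 1⟧ ⟶ Z)) :
    Finite ((𝟙_ T)⟦t⟧ ⟶ F.L.obj (X ⊗ C)) := by
  have e1 : ∀ W : T, (W ⟶ Z) ≃+ (W ⟶ F.L.obj X) := fun W =>
    { toFun := fun f => f ≫ e.inv
      invFun := fun f => f ≫ e.hom
      left_inv := fun f => by simp
      right_inv := fun f => by simp
      map_add' := fun f g => by simp }
  exact finite_of_fg F hC X _ (h.congr (e1 _))
    (h'.congr ((e1 _).trans (sh (t - 1) 1 t (by ring))))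

end loc

open Vale.Agent.P251.St Vale.Agent.P251.St.SHCat

/-- **The library data attached to a Morava K-theory**, and the homotopy of `L_{K(n)} S`. -/
theorem exists_model {T : SHCat} (S : Susp T) {p n : ℕ} [Fact p.Prime] (hp : p ≠ 2) (hn : 1 ≤ n)
    (R : RingSp T) (hR : St.IsMorava S R p n) {Z : T.C} (z : Hom T.one Z)
    (hz : St.IsLoc R.obj z) :
    ∃ (D : MUData T.C) (U : UnitCof D.R) (C : T.C) (i : 𝟙_ T.C ⟶ C)
      (δ : C ⟶ (𝟙_ T.C)⟦(1 : ℤ)⟧)
      (_ : Triangle.mk ((p : ℤ) • 𝟙 (𝟙_ T.C)) i δ ∈ distTriang T.C)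
      (Dk : KosData D.P (p : ℤ) n (D.vs p)) (F : LocFunctor Dk.K) (_ : GrOut D U p n i F),
      (∀ t : ℤ, Finite ((𝟙_ T.C)⟦t⟧ ⟶ F.L.obj (𝟙_ T.C ⊗ C)) → FG p (Hom (sphere T t) Z)) ∧
      (∀ t : ℤ, FG p (Hom (sphere T t) Z) → FG p (Hom (sphere T (t - 1)) Z) →
        Finite ((𝟙_ T.C)⟦t⟧ ⟶ F.L.obj (𝟙_ T.C ⊗ C))) ∧
      ∀ t : ℤ, (∀ x : (𝟙_ T.C)⟦t⟧ ⟶ F.L.obj (𝟙_ T.C ⊗ C), x = 0) →
        ∀ x : Hom (sphere T t) Z, x = 0 := by
  have := locallySmall_self.{0} T.C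
  obtain ⟨n, rfl⟩ : ∃ m, n = m + 1 := ⟨n - 1, by omega⟩
  obtain ⟨_, o, hK⟩ := isMorava_of S R hR
  obtain ⟨D, H⟩ := M.MU_univ T.C S.toSpaceFunctor (M.lineIso S.toSpaceFunctor)
  obtain ⟨U⟩ := exists_unitCof D.R
  obtain ⟨C, i, δ, hC⟩ := distinguished_cocone_triangle ((p : ℤ) • 𝟙 (𝟙_ T.C))
  obtain ⟨Dk⟩ := exists_kosData D.P (p : ℤ) (n + 1) (D.vs p)
  obtain ⟨F⟩ := Vale.Agent.P251.Z.nonempty_locFunctor' Dk.K
  have hz' := (isLoc_iff R.obj z).1 hz
  obtain ⟨e⟩ := exists_iso_of_isLoc F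
    (fun W hW => Vale.Agent.P251.Z.acyclic_of_kos H hn o hK Dk hW)
    (fun W hW => Vale.Agent.P251.Z.kos_of_acyclic H hp hn hC o hK Dk hW) hz'
  have h0 : (p : ℤ) • 𝟙 R.obj = 0 := zsmul_id_of_unit hK.char
  refine ⟨D, U, C, i, δ, hC, Dk, F, grOut D U hp hn hC Dk F, ?_, ?_, ?_⟩
  · intro t h
    exact fg_of_finite_iso F hC h0 e hz'.2 _ h
  · intro t h h'
    exact finite_of_fg_iso F hC e t h h'
  · intro t h
    exact eq_zero_iso F hC h0 e hz'.2 _ h

end Vale.Agent.P261.H273
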