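import Vale.Agent.P261.TopMain
import Vale.Agent.P261.H273.Glue

/-!
# P261: assembly

`T` a stable homotopy category with suspension spectra, `R` a Morava `K`-theory of height `n ≥ 1`
at the odd prime `p`, `n ^ 2 + 1 < 2 (p - 1)`, `z : S ⟶ Z` the localization of the sphere.
-/

open CategoryTheory MonoidalCategory Limits Pretriangulated

namespace Vale.Agent.P261.H273

open Vale.Agent.P251 Vale.Agent.P251.T Vale.Agent.P251.S Vale.Agent.P251.I Vale.Agent.P251.M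
open Vale.Agent.P251.St Vale.Agent.P251.St.SHCat

section arith

variable {p n : ℕ}

theorem ne_two_of_sparse (hn : 1 ≤ n) (h : n ^ 2 + 1 < 2 * (p - 1)) : p ≠ 2 := by
  rintro rfl
  have : 1 ≤ n ^ 2 := Nat.one_le_pow _ _ hn
  omega

theorem not_dvd_of_sparse (hn : 1 ≤ n) (h : n ^ 2 + 1 < 2 * (p - 1)) : ¬ (p - 1) ∣ n := by
  intro hd
  have h1 : p - 1 ≤ n := Nat.le_of_dvd hn hd
  nlinarith [Nat.mul_le_mul h1 h1]

/-- The number of blocks of a window, `∑_{k=1}^{n-1} (1 + p + ⋯ + p^{k-1})`. -/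
theorem winLen_eq (hp : 1 ≤ p) :
    winLen p n 1 = ((p : ℤ) - 1) * ((∑ k ∈ Finset.Ico 1 n, ∑ j ∈ Finset.range k, p ^ j : ℕ) : ℤ) := by
  rw [winLen]
  push_cast
  rw [Finset.mul_sum]
  exact Finset.sum_congr rfl fun k _ => by rw [mul_comm, geom_sum_mul]

end arith

variable {T : SHCat} (S : Susp T) {p n : ℕ} [Fact p.Prime]
  (hn : 1 ≤ n) (hs : n ^ 2 + 1 < 2 * (p - 1))
  (R : RingSp T) (hR : St.IsMorava S R p n) {Z : T.C} (z : Hom T.one Z)
  (hz : St.IsLoc R.obj z)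

include hn hs hR hz

/-- **Sparseness**. -/
theorem sparse (t : ℤ) (ht : ∀ s : ℕ, s ≤ n ^ 2 → ¬ (2 * ((p : ℤ) - 1)) ∣ t + s)
    (x : Hom (sphere T t) Z) : x = 0 := by
  obtain ⟨D, U, C, i, δ, hC, Dk, F, -, -, -, H⟩ :=
    exists_model S (ne_two_of_sparse hn hs) hn R hR z hz
  exact H t (top_zero D Dk F (ne_two_of_sparse hn hs) hn hC (not_dvd_of_sparse hn hs) t
    fun s h => ht s (by rw [pow_two]; exact h)) x

/-- **The window law**. -/
theorem window (b : ℤ)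
    (hb : ∀ (c : ℤ) (s : ℕ), b ≤ c →
      c < b + (∑ k ∈ Finset.Ico 1 n, ∑ j ∈ Finset.range k, p ^ j : ℕ) → s ≤ n ^ 2 →
      FG p (Hom (sphere T (2 * ((p : ℤ) - 1) * c - s)) Z)) (t : ℤ) :
    FG p (Hom (sphere T t) Z) := by
  have hp2 := ne_two_of_sparse hn hs
  have hd := not_dvd_of_sparse hn hs
  have hp1 : 1 ≤ p := (Fact.out : p.Prime).one_lt.le
  have hs' : ((n ^ 2 : ℕ) : ℤ) + 1 < 2 * ((p : ℤ) - 1) := by
    have h : ((n ^ 2 + 1 : ℕ) : ℤ) < ((2 * (p - 1) : ℕ) : ℤ) := by exact_mod_cast hs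
    rw [Nat.cast_add, Nat.cast_mul, Nat.cast_sub hp1] at h
    simpa using h
  have hp0 : (0 : ℤ) < (p : ℤ) - 1 := by
    have : (0 : ℤ) ≤ ((n ^ 2 : ℕ) : ℤ) := Nat.cast_nonneg _
    linarith
  obtain ⟨D, U, C, i, δ, hC, Dk, F, -, H1, H2, -⟩ := exists_model S hp2 hn R hR z hz
  refine H1 t (top_fin_of D Dk F hp2 hn hC hd t fun w s _ _ _ => ?_)
  refine finN_of_window p hn (fun w s => H681.fin_lev hp2 (by omega) w s 0) (((p : ℤ) - 1) * b)
    ?_ w s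
  intro w hw1 hw2 s
  by_cases hs1 : s ≤ n * n ∧ ((p : ℤ) - 1) ∣ w
  · obtain ⟨hs2, c, rfl⟩ := hs1
    rw [winLen_eq hp1, ← mul_add] at hw2
    have hc1 : b ≤ c := le_of_mul_le_mul_left hw1 hp0
    have hc2 := lt_of_mul_lt_mul_left hw2 hp0.le
    have hs3 : s ≤ n ^ 2 := by rw [pow_two]; exact hs2
    have e1 : FG p (Hom (sphere T (2 * ((p : ℤ) - 1) * c - s)) Z) := hb c s hc1 hc2 hs3
    have e2 : FG p (Hom (sphere T (2 * ((p : ℤ) - 1) * c - s - 1)) Z) := by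
      rcases Nat.lt_or_ge s (n ^ 2) with h | h
      · have := hb c (s + 1) hc1 hc2 h
        rw [Nat.cast_add, Nat.cast_one, ← sub_sub] at this
        exact this
      · obtain rfl : s = n ^ 2 := le_antisymm hs3 h
        refine H1 _ ?_
        have h0 : ∀ x : (𝟙_ T.C)⟦2 * ((p : ℤ) - 1) * c - ((n ^ 2 : ℕ) : ℤ) - 1⟧ ⟶
            F.L.obj (𝟙_ T.C ⊗ C), x = 0 := by
          refine top_zero D Dk F hp2 hn hC hd _ fun s h => ?_
          rintro ⟨d, hd'⟩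
          have hs4 : ((s : ℕ) : ℤ) ≤ ((n ^ 2 : ℕ) : ℤ) := by
            rw [pow_two]; exact_mod_cast h
          have hs5 : (0 : ℤ) ≤ (s : ℤ) := Nat.cast_nonneg _
          have h6 : 2 * ((p : ℤ) - 1) * (d - c) = s - ((n ^ 2 : ℕ) : ℤ) - 1 := by
            rw [mul_sub, ← hd']; ring
          have h7 : d - c < 0 := by
            by_contra h8
            have := mul_nonneg (mul_nonneg zero_le_two hp0.le) (not_lt.1 h8)
            linarith
          have h8 : 2 * ((p : ℤ) - 1) * (d - c) ≤ 2 * ((p : ℤ) - 1) * (-1) :=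
            mul_le_mul_of_nonneg_left (by omega) (by positivity)
          linarith
        have : Subsingleton ((𝟙_ T.C)⟦2 * ((p : ℤ) - 1) * c - ((n ^ 2 : ℕ) : ℤ) - 1⟧ ⟶
            F.L.obj (𝟙_ T.C ⊗ C)) := ⟨fun x y => (h0 x).trans (h0 y).symm⟩
        exact Finite.of_subsingleton
    have : Finite ((𝟙_ T.C)⟦2 * ((p : ℤ) - 1) * c - (s : ℤ)⟧ ⟶ F.L.obj (𝟙_ T.C ⊗ C)) :=
      H2 _ e1 e2
    refine lim_fin_of D Dk F hp2 hn hC hd ?_ (2 * ((p : ℤ) - 1) * c - (s : ℤ)) _ s (by ring)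
    rw [← pow_two]
    linarith
  · exact (FinMod.refl _).mono le_rfl (lim_van hp2 hn hd w s hs1)

end Vale.Agent.P261.H273
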