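import Vale.Agent.P261.H273.Model2

/-!
# P261: assembly, second part

`T` a stable homotopy category with suspension spectra, `R` a Morava `K`-theory of height `n ≥ 1`
at the odd prime `p`, `n ^ 2 + 1 < 2 (p - 1)`, `z : S ⟶ Z` the localization of the sphere.
-/

open CategoryTheory MonoidalCategory Limits Pretriangulated MonObj

set_option linter.unusedSectionVars false

namespace Vale.Agent.P261.H273

open Vale.Agent.P251 Vale.Agent.P251.T Vale.Agent.P251.S Vale.Agent.P251.I Vale.Agent.P251.M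
open Vale.Agent.P251.St Vale.Agent.P251.St.SHCat Vale.Agent.P261

/-- **The library data attached to a Morava K-theory**, and the localization of the sphere. -/
theorem exists_model2 {T : SHCat} (S : Susp T) {p n : ℕ} [Fact p.Prime] (hp : p ≠ 2) (hn : 1 ≤ n)
    (R : RingSp T) (hR : St.IsMorava S R p n) {Z : T.C} (z : Hom T.one Z)
    (hz : St.IsLoc R.obj z) :
    ∃ (D : MUData T.C) (C : T.C) (i : 𝟙_ T.C ⟶ C)
      (δ : C ⟶ (𝟙_ T.C)⟦(1 : ℤ)⟧)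
      (_ : Triangle.mk ((p : ℤ) • 𝟙 (𝟙_ T.C)) i δ ∈ distTriang T.C)
      (Dk : KosData D.P (p : ℤ) n (D.vs p)) (F : LocFunctor Dk.K) (_ : F.L.obj (𝟙_ T.C) ≅ Z),
      (p : ℤ) • 𝟙 R.obj = 0 ∧ Vale.Agent.P251.S.IsLocal R.obj Z := by
  have := locallySmall_self.{0} T.C
  obtain ⟨n, rfl⟩ : ∃ m, n = m + 1 := ⟨n - 1, by omega⟩
  obtain ⟨_, o, hK⟩ := isMorava_of S R hR
  obtain ⟨D, H⟩ := M.MU_univ T.C S.toSpaceFunctor (M.lineIso S.toSpaceFunctor)
  obtain ⟨C, i, δ, hC⟩ := distinguished_cocone_triangle ((p : ℤ) • 𝟙 (𝟙_ T.C))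
  obtain ⟨Dk⟩ := exists_kosData D.P (p : ℤ) (n + 1) (D.vs p)
  obtain ⟨F⟩ := Vale.Agent.P251.Z.nonempty_locFunctor' Dk.K
  have hz' := (isLoc_iff R.obj z).1 hz
  obtain ⟨e⟩ := exists_iso_of_isLoc F
    (fun W hW => Vale.Agent.P251.Z.acyclic_of_kos H hn o hK Dk hW)
    (fun W hW => Vale.Agent.P251.Z.kos_of_acyclic H hp hn hC o hK Dk hW) hz'
  exact ⟨D, C, i, δ, hC, Dk, F, e, zsmul_id_of_unit hK.char, hz'.2⟩

section

variable {T : SHCat} {p : ℕ} {C Z : T.C} {i : 𝟙_ T.C ⟶ C} {δ : C ⟶ (𝟙_ T.C)⟦(1 : ℤ)⟧}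
  (hC : Triangle.mk ((p : ℤ) • 𝟙 (𝟙_ T.C)) i δ ∈ distTriang T.C) {K : T.C}
  (F : LocFunctor K) (e : F.L.obj (𝟙_ T.C) ≅ Z)

include hC e

/-- The `p`-torsion of `π_t Z` is finite if `π_{t+1} (L (S/p))` is. -/
theorem tors_iso_finite {t t' : ℤ} (ht : t + 1 = t')
    (h : Finite ((𝟙_ T.C)⟦t'⟧ ⟶ F.L.obj (𝟙_ T.C ⊗ C))) :
    {x : (𝟙_ T.C)⟦t⟧ ⟶ Z | p • x = 0}.Finite := by
  obtain ⟨d, hd⟩ := exists_tri_loc F hC (𝟙_ T.C)
  have h1 := tors_of_tri (P := 𝟙_ T.C) hd ht h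
  refine (h1.image fun x => x ≫ e.hom).subset fun x hx => ?_
  refine ⟨x ≫ e.inv, ?_, by simp⟩
  have hx' : p • x = 0 := hx
  change p • (x ≫ e.inv) = 0
  rw [← Preadditive.nsmul_comp, hx', zero_comp]

/-- `π_t Z` has no `p`-torsion if `π_{t+1} (L (S/p)) = 0`. -/
theorem tors_iso_zero {t t' : ℤ} (ht : t + 1 = t')
    (h : ∀ x : (𝟙_ T.C)⟦t'⟧ ⟶ F.L.obj (𝟙_ T.C ⊗ C), x = 0)
    (x : (𝟙_ T.C)⟦t⟧ ⟶ Z) (hx : p • x = 0) : x = 0 := by
  obtain ⟨d, hd⟩ := exists_tri_loc F hC (𝟙_ T.C)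
  have h1 := tors_zero_of_tri (P := 𝟙_ T.C) hd ht h (x ≫ e.inv)
    (by rw [← Preadditive.nsmul_comp, hx, zero_comp])
  rw [← Category.comp_id x, ← e.inv_hom_id, ← Category.assoc, h1, zero_comp]

end

variable {T : SHCat} (S : Susp T) {p n : ℕ} [Fact p.Prime]
  (hn : 1 ≤ n) (hs : n ^ 2 + 1 < 2 * (p - 1))
  (R : RingSp T) (hR : St.IsMorava S R p n) {Z : T.C} (z : Hom T.one Z)
  (hz : St.IsLoc R.obj z)

include hs in
theorem cast_sparse : ((n * n : ℕ) : ℤ) + 1 < 2 * ((p : ℤ) - 1) := by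
  have hp1 : 1 ≤ p := (Fact.out : p.Prime).one_lt.le
  have h : ((n ^ 2 + 1 : ℕ) : ℤ) < ((2 * (p - 1) : ℕ) : ℤ) := by exact_mod_cast hs
  rw [Nat.cast_add, Nat.cast_mul, Nat.cast_sub hp1] at h
  rw [← pow_two]
  simpa using h

include hn hs hR hz

theorem dcomp (t : ℤ) : DComp p (Hom (sphere T t) Z) := by
  obtain ⟨D, C, i, δ, hC, Dk, F, e, h0, hZ⟩ :=
    exists_model2 S (ne_two_of_sparse hn hs) hn R hR z hz
  exact dcomp_of_isLocal hZ (m := 1) (by rw [pow_one]; exact h0) _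

/-- **Exponents.** -/
theorem kill (c : ℤ) (s : ℕ) (hc : c ≠ 0) (hsn : s ≤ n ^ 2)
    (x : Hom (sphere T (2 * ((p : ℤ) - 1) * c - s)) Z) : p ^ (1 + padicValInt p c) • x = 0 := by
  obtain ⟨D, C, i, δ, hC, Dk, F, e, -, -⟩ :=
    exists_model2 S (ne_two_of_sparse hn hs) hn R hR z hz
  have hH := cast_sparse (n := n) hs
  let g : Z ≅ F.L.obj (𝟙_ T.C ⊗ 𝟙_ T.C) := e.symm ≪≫ F.L.mapIso (λ_ (𝟙_ T.C)).symm
  let x' : (𝟙_ T.C)⟦2 * ((p : ℤ) - 1) * c - s⟧ ⟶ Z := x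
  have h1 := Vale.Agent.P261.M.topZ_kill D Dk F (ne_two_of_sparse hn hs) hn hC (not_dvd_of_sparse hn hs)
    (by linarith) (2 * ((p : ℤ) - 1) * c - s) c s (by rw [← pow_two]; exact hsn) (by ring) hc
    (x' ≫ g.hom)
  have h2 : (p ^ (1 + padicValInt p c) • x') ≫ g.hom = 0 := by
    rw [Preadditive.nsmul_comp, ← natCast_zsmul]
    push_cast
    exact h1
  have h3 : p ^ (1 + padicValInt p c) • x' = 0 := by
    rw [← Category.comp_id (p ^ (1 + padicValInt p c) • x'), ← g.hom_inv_id, ← Category.assoc,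
      h2, zero_comp]
  exact h3

/-- `π_{2 (p - 1) c} Z` is torsion free. -/
theorem tors_even (c : ℤ) (x : Hom (sphere T (2 * ((p : ℤ) - 1) * c)) Z) (hx : p • x = 0) :
    x = 0 := by
  obtain ⟨D, C, i, δ, hC, Dk, F, e, -, -⟩ :=
    exists_model2 S (ne_two_of_sparse hn hs) hn R hR z hz
  have hH := cast_sparse (n := n) hs
  refine tors_iso_zero (t := 2 * ((p : ℤ) - 1) * c) hC F e rfl ?_ x hx
  refine top_zero D Dk F (ne_two_of_sparse hn hs) hn hC (not_dvd_of_sparse hn hs) _ fun s h => ?_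
  rintro ⟨d, hd⟩
  have h1 : (s : ℤ) ≤ ((n * n : ℕ) : ℤ) := by exact_mod_cast h
  have h0 : (0 : ℤ) ≤ s := Nat.cast_nonneg _
  have h2 : 2 * ((p : ℤ) - 1) * (d - c) = s + 1 := by rw [mul_sub, ← hd]; ring
  have h3 : d - c < 1 := by
    by_contra h3
    have := mul_le_mul_of_nonneg_left (not_lt.1 h3) (by linarith : (0 : ℤ) ≤ 2 * ((p : ℤ) - 1))
    linarith
  have h4 : d - c ≤ 0 := by omega
  have := mul_le_mul_of_nonneg_left h4 (by linarith : (0 : ℤ) ≤ 2 * ((p : ℤ) - 1))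
  linarith

/-- `π_{2 (p - 1) c} Z = 0` for `c ≠ 0`. -/
theorem zero_even (c : ℤ) (hc : c ≠ 0) (x : Hom (sphere T (2 * ((p : ℤ) - 1) * c)) Z) :
    x = 0 := by
  refine zero_of_kill (p := p) (m := 1 + padicValInt p c)
    (fun y hy => tors_even S hn hs R hR z hz c y hy) ?_
  have h1 := kill S hn hs R hR z hz c 0 hc (Nat.zero_le _)
  rw [Nat.cast_zero, sub_zero] at h1
  exact h1 x

/-- `π_0 Z` is a finitely generated free `ℤ_p`-module. -/
theorem fg_zero : FG p (Hom (sphere T 0) Z) := by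
  obtain ⟨D, C, i, δ, hC, Dk, F, e, h0, hZ⟩ :=
    exists_model2 S (ne_two_of_sparse hn hs) hn R hR z hz
  have hH := cast_sparse (n := n) hs
  have h1 := top0_fin D Dk F (ne_two_of_sparse hn hs) hn hC (not_dvd_of_sparse hn hs)
    (by linarith) 0
  rw [mul_zero] at h1
  exact fg_of_finite_iso F hC h0 e hZ _ h1

/-- `π_{2 (p - 1) c - 1} Z` is finite for `c ≠ 0`. -/
theorem fin_one (c : ℤ) (hc : c ≠ 0) : Finite (Hom (sphere T (2 * ((p : ℤ) - 1) * c - 1)) Z) := by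
  obtain ⟨D, C, i, δ, hC, Dk, F, e, -, -⟩ :=
    exists_model2 S (ne_two_of_sparse hn hs) hn R hR z hz
  have hH := cast_sparse (n := n) hs
  have h1 := top0_fin D Dk F (ne_two_of_sparse hn hs) hn hC (not_dvd_of_sparse hn hs)
    (by linarith) c
  have h2 := kill S hn hs R hR z hz c 1 hc (Nat.one_le_pow _ _ hn)
  rw [Nat.cast_one] at h2
  exact finite_of_kill (tors_iso_finite (t := 2 * ((p : ℤ) - 1) * c - 1) hC F e (by ring) h1) h2

/-- `π_{2 (p - 1) c - 1} Z = 0` for `c < 0` and `n ≥ 2`. -/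
theorem zero_one (hn2 : 2 ≤ n) (c : ℤ) (hc : c < 0)
    (x : Hom (sphere T (2 * ((p : ℤ) - 1) * c - 1)) Z) : x = 0 := by
  obtain ⟨D, C, i, δ, hC, Dk, F, e, -, -⟩ :=
    exists_model2 S (ne_two_of_sparse hn hs) hn R hR z hz
  have hH := cast_sparse (n := n) hs
  have h1 := top0_zero D Dk F (ne_two_of_sparse hn hs) hn hC (not_dvd_of_sparse hn hs)
    (by linarith) hn2 hc
  have h2 := kill S hn hs R hR z hz c 1 hc.ne (Nat.one_le_pow _ _ hn)
  rw [Nat.cast_one] at h2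
  exact zero_of_kill (fun y hy => tors_iso_zero (t := 2 * ((p : ℤ) - 1) * c - 1) hC F e (by ring)
    h1 y hy) (h2 x)

/-- **The window law**, with the unconditional results. -/
theorem window2 (b : ℤ)
    (hb : ∀ (c : ℤ) (s : ℕ), b ≤ c →
      c < b + (∑ k ∈ Finset.Ico 1 n, ∑ j ∈ Finset.range k, p ^ j : ℕ) → 1 ≤ s → s ≤ n ^ 2 →
      (s = 1 → c = 0) → FG p (Hom (sphere T (2 * ((p : ℤ) - 1) * c - s)) Z)) (t : ℤ) :
    FG p (Hom (sphere T t) Z) := by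
  refine window S hn hs R hR z hz b (fun c s h1 h2 h3 => ?_) t
  rcases Nat.eq_zero_or_pos s with rfl | hs0
  · rw [Nat.cast_zero, sub_zero]
    by_cases hc : c = 0
    · rw [hc, mul_zero]
      exact fg_zero S hn hs R hR z hz
    · have : Subsingleton (Hom (sphere T (2 * ((p : ℤ) - 1) * c)) Z) :=
        ⟨fun x y => (zero_even S hn hs R hR z hz c hc x).trans
          (zero_even S hn hs R hR z hz c hc y).symm⟩
      exact (dcomp S hn hs R hR z hz _).fg_of_finite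
  · by_cases hc : s = 1 ∧ c ≠ 0
    · obtain ⟨rfl, hc⟩ := hc
      rw [Nat.cast_one]
      have := fin_one S hn hs R hR z hz c hc
      exact (dcomp S hn hs R hR z hz _).fg_of_finite
    · exact hb c s h1 h2 hs0 h3 fun h4 => by
        by_contra h5
        exact hc ⟨h4, h5⟩

end Vale.Agent.P261.H273
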