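import Vale.Agent.P261.H273.Glue2

/-!
# P261: assembly of the countability criterion

`crit_of`: the criterion in the language of the statement layer from its version in the library.
-/

open CategoryTheory MonoidalCategory Limits Pretriangulated MonObj

set_option linter.unusedSectionVars false

namespace Vale.Agent.P261.H273

open Vale.Agent.P251 Vale.Agent.P251.T Vale.Agent.P251.S Vale.Agent.P251.I Vale.Agent.P251.M
open Vale.Agent.P251.St Vale.Agent.P251.St.SHCat Vale.Agent.P261 Vale.Agent.P261.H621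

/-- The countability criterion in the language of the library. -/
def CritT (T : SHCat) (p n : ℕ) : Prop :=
  ∀ (D : MUData T.C) (_ : JCells D.R) (C : T.C) (i : 𝟙_ T.C ⟶ C) (δ : C ⟶ (𝟙_ T.C)⟦(1 : ℤ)⟧)
    (_ : Triangle.mk ((p : ℤ) • 𝟙 (𝟙_ T.C)) i δ ∈ distTriang T.C)
    (Kf : KosFam D.P (p : ℤ) (D.vs p)) (F : LocFunctor (Kf.at_ n).K) (E : T.C)
    (FE : LocFunctor E)
    (_ : ∀ W, Vale.Agent.P251.S.Acyclic E W → ∀ j, 1 ≤ j → j < n →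
      Vale.Agent.P251.S.Acyclic (Kf.at_ j).K W)
    (_ : ∀ W, (∃ k : ℕ, (p : ℤ) ^ k • 𝟙 W = 0) → (∀ j, 1 ≤ j → j < n →
      Vale.Agent.P251.S.Acyclic (Kf.at_ j).K W) → Vale.Agent.P251.S.Acyclic E W) (t : ℤ),
    (Countable ((𝟙_ T.C)⟦t⟧ ⟶ F.L.obj (𝟙_ T.C ⊗ C)) ↔
      Countable ((𝟙_ T.C)⟦t⟧ ⟶ FE.L.obj (F.L.obj (𝟙_ T.C ⊗ C)))) ∧
    (Countable ((𝟙_ T.C)⟦t⟧ ⟶ F.L.obj (𝟙_ T.C ⊗ C)) →
      Finite ((𝟙_ T.C)⟦t⟧ ⟶ F.L.obj (𝟙_ T.C ⊗ C)))

section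

variable {T : SHCat} {A B : T.C}

/-- postcomposition with an isomorphism -/
def homEquiv (e : A ≅ B) (W : T.C) : (W ⟶ A) ≃ (W ⟶ B) where
  toFun f := f ≫ e.hom
  invFun f := f ≫ e.inv
  left_inv f := by simp
  right_inv f := by simp

end

variable {T : SHCat} (S : Susp T) {p n : ℕ} [Fact p.Prime]
  (hn : 1 ≤ n) (hs : n ^ 2 + 1 < 2 * (p - 1))
  (hMU : ∃ D : MUData T.C, MUUniv (M.lineIso S.toSpaceFunctor) D ∧ JCells D.R)
  (hC : CritT T p n)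
  (K : ℕ → RingSp T) (hK : ∀ i ≤ n, St.IsMorava S (K i) p i)
  {E : T.C} (hE : St.IsClassE n K E)
  {C : T.C} {a : Hom T.one C} {b : Hom C (sus T.one)}
  (hab : Dist (zmul (p : ℤ) (ident T.one)) a b)
  {Z : T.C} (z : Hom T.one Z) (hz : St.IsLoc (K n).obj z)
  {Y : T.C} (y : Hom (ten Z C) Y) (hy : St.IsLoc E y)

include hn hs hMU hC hK hE hab hz hy

/-- **The criterion**, in each degree. -/
theorem crit_aux : (∀ t : ℤ, Countable (Hom (sphere T t) Y) → Finite (Hom (sphere T t) (ten Z C))) ∧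
    (∀ t : ℤ, Finite (Hom (sphere T t) (ten Z C)) → Countable (Hom (sphere T t) Y)) ∧
    (∀ t : ℤ, Finite (Hom (sphere T t) (ten Z C)) → FG p (Hom (sphere T t) Z)) ∧
    (∀ t : ℤ, FG p (Hom (sphere T t) Z) → FG p (Hom (sphere T (t - 1)) Z) →
      Finite (Hom (sphere T t) (ten Z C))) := by
  have := locallySmall_self.{0} T.C
  have hp := ne_two_of_sparse hn hs
  have hab' : Triangle.mk ((p : ℤ) • 𝟙 (𝟙_ T.C)) a b ∈ distTriang T.C := hab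
  obtain ⟨D, hJ, Kf, F, e, hKf⟩ := exists_model3 S hp hn hMU K hK hab' z hz
  obtain ⟨FE⟩ := Vale.Agent.P251.Z.nonempty_locFunctor' E
  obtain ⟨g⟩ := exists_tensIso hab' F e
  have hC' := hC D hJ C a b hab' Kf F E FE
    (fun W hW j hj hjn => (hKf j hj hjn.le W).1 (acyclic_of_classE hE hW hjn))
    (fun W hW h => classE_of_acyclic S hK hE (Fact.out : p.Prime).ne_zero hW fun j hj hjn =>
      (hKf j hj hjn.le W).2 (h j hj hjn))
  obtain ⟨g'⟩ := exists_iso_of_isLoc FE (fun _ h => h) (fun _ h => h) ((isLoc_iff E y).1 hy)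
  let g2 : FE.L.obj (F.L.obj (𝟙_ T.C ⊗ C)) ≅ Y := FE.L.mapIso g ≪≫ g'
  have e1 : ∀ t : ℤ, ((𝟙_ T.C)⟦t⟧ ⟶ F.L.obj (𝟙_ T.C ⊗ C)) ≃ Hom (sphere T t) (ten Z C) :=
    fun t => homEquiv g _
  have e2 : ∀ t : ℤ, ((𝟙_ T.C)⟦t⟧ ⟶ FE.L.obj (F.L.obj (𝟙_ T.C ⊗ C))) ≃ Hom (sphere T t) Y :=
    fun t => homEquiv g2 _
  have hZ := (isLoc_iff (K n).obj z).1 hz
  have h0 := zsmul_id_of_morava S hn (hK n le_rfl)
  refine ⟨fun t h => ?_, fun t h => ?_, fun t h => ?_, fun t h h' => ?_⟩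
  · have h1 : Countable ((𝟙_ T.C)⟦t⟧ ⟶ FE.L.obj (F.L.obj (𝟙_ T.C ⊗ C))) :=
      (e2 t).injective.countable
    have h2 := (hC' t).2 ((hC' t).1.2 h1)
    exact Finite.of_equiv _ (e1 t)
  · have h1 : Finite ((𝟙_ T.C)⟦t⟧ ⟶ F.L.obj (𝟙_ T.C ⊗ C)) := Finite.of_equiv _ (e1 t).symm
    have h2 : Countable ((𝟙_ T.C)⟦t⟧ ⟶ F.L.obj (𝟙_ T.C ⊗ C)) := inferInstance
    have h3 := (hC' t).1.1 h2
    exact (e2 t).symm.injective.countable
  · have h1 : Finite ((𝟙_ T.C)⟦t⟧ ⟶ F.L.obj (𝟙_ T.C ⊗ C)) := Finite.of_equiv _ (e1 t).symm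
    exact fg_of_finite_iso F hab' h0 e hZ.2 _ h1
  · have h1 := finite_of_fg_iso F hab' e t h h'
    exact Finite.of_equiv _ (e1 t)

/-- **The criterion for finite type.** -/
theorem crit_fg : (∀ t : ℤ, FG p (Hom (sphere T t) Z)) ↔
    ∀ t : ℤ, Countable (Hom (sphere T t) Y) := by
  obtain ⟨h1, h2, h3, h4⟩ := crit_aux S hn hs hMU hC K hK hE hab z hz y hy
  exact ⟨fun h t => h2 t (h4 t (h t) (h (t - 1))), fun h t => h3 t (h1 t (h t))⟩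

/-- **The criterion for finite type**, with the window law. -/
theorem crit_window (b : ℤ)
    (hb : ∀ (c : ℤ) (s : ℕ), b ≤ c →
      c < b + (∑ k ∈ Finset.Ico 1 n, ∑ j ∈ Finset.range k, p ^ j : ℕ) → 1 ≤ s → s ≤ n ^ 2 →
      (s = 1 → c = 0) → Countable (Hom (sphere T (2 * ((p : ℤ) - 1) * c - s)) Y)) (t : ℤ) :
    FG p (Hom (sphere T t) Z) := by
  obtain ⟨h1, h2, h3, h4⟩ := crit_aux S hn hs hMU hC K hK hE hab z hz y hy
  refine window2 S hn hs (K n) (hK n le_rfl) z hz b (fun c s hc hc' hs0 hs1 hsc => ?_) t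
  exact h3 _ (h1 _ (hb c s hc hc' hs0 hs1 hsc))

end Vale.Agent.P261.H273
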