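import Vale.Agent.P261.H273.Assembly2
import Vale.Agent.P261.H621.Defs

/-!
# P261: from the statement layer of P251 to the library, all heights `≤ n`

* `isIso_zsmul_rational`, `acyclic_rational`: `p`-nilpotent spectra are `K(0)`-acyclic;
* `exists_model3`: the library data attached to Morava K-theories of heights `0, …, n`, a spectrum
  `E` of the Bousfield class of `K(0) ∨ ⋯ ∨ K(n-1)` and the `K(n)`-localization of the sphere;
* `tensIso`: `L (𝟙 ⊗ C) ≅ Z ⊗ C`.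
-/

open CategoryTheory MonoidalCategory Limits Pretriangulated MonObj

set_option linter.unusedSectionVars false

namespace Vale.Agent.P261.H273

open Vale.Agent.P251 Vale.Agent.P251.T Vale.Agent.P251.S Vale.Agent.P251.I Vale.Agent.P251.M
open Vale.Agent.P251.St Vale.Agent.P251.St.SHCat Vale.Agent.P261 Vale.Agent.P261.H621

variable {T : SHCat}

/-- Nonzero integers are invertible on a rational ring spectrum. -/
theorem isIso_zsmul_rational {R : RingSp T} (hR : St.IsRational R) {m : ℤ} (hm : m ≠ 0) :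
    IsIso (m • 𝟙 R.obj) := by
  have hdiv := hR.div m hm
  let e : (𝟙_ T.C)⟦(0 : ℤ)⟧ ≅ 𝟙_ T.C := (shiftFunctorZero T.C ℤ).app (𝟙_ T.C)
  refine M.isIso_of_pi _ (fun k w hw => ?_) (fun k w => ?_)
  · by_cases hk : k = 0
    · subst hk
      let w' : (𝟙_ T.C)⟦(0 : ℤ)⟧ ⟶ R.obj := w
      have h1 : m • (e.inv ≫ w') = m • (0 : 𝟙_ T.C ⟶ R.obj) := by
        rw [smul_zero, ← Preadditive.comp_zsmul]
        have h2 : m • w' = w' ≫ (m • 𝟙 R.obj) := by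
          rw [Preadditive.comp_zsmul, Category.comp_id]
        have h3 : w' ≫ (m • 𝟙 R.obj) = 0 := hw
        rw [h2, h3, comp_zero]
      have h4 : e.inv ≫ w' = 0 := hdiv.1 h1
      have h5 : w' = 0 := by
        rw [← Category.id_comp w', ← e.hom_inv_id, Category.assoc, h4, comp_zero]
      exact h5
    · exact hR.conc k w hk
  · by_cases hk : k = 0
    · subst hk
      let w' : (𝟙_ T.C)⟦(0 : ℤ)⟧ ⟶ R.obj := w
      obtain ⟨y, hy⟩ := hdiv.2 (e.inv ≫ w')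
      have hy' : m • y = e.inv ≫ w' := hy
      refine ⟨e.hom ≫ y, ?_⟩
      change (e.hom ≫ y) ≫ (m • 𝟙 R.obj) = w'
      rw [Preadditive.comp_zsmul, Category.comp_id, ← Preadditive.comp_zsmul, hy',
        Iso.hom_inv_id_assoc]
    · have h0 : w = 0 := hR.conc k w hk
      exact ⟨0, by rw [h0, zero_comp]⟩

/-- Spectra on which a nonzero integer is nilpotent are acyclic for a rational ring spectrum. -/
theorem acyclic_rational {R : RingSp T} (hR : St.IsRational R) {m : ℤ} (hm : m ≠ 0) {W : T.C}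
    {k : ℕ} (hW : m ^ k • 𝟙 W = 0) : Vale.Agent.P251.S.Acyclic R.obj W := by
  have h1 : IsIso (m ^ k • 𝟙 R.obj) := isIso_zsmul_rational hR (pow_ne_zero k hm)
  have h2 : (m ^ k • 𝟙 R.obj) ▷ W = 0 := by
    have h3 : (m ^ k • 𝟙 R.obj) ▷ W = m ^ k • 𝟙 (R.obj ⊗ W) :=
      ((tensorRight W).map_zsmul).trans (congrArg _ (MonoidalCategory.id_whiskerRight _ _))
    have h4 : R.obj ◁ (m ^ k • 𝟙 W) = m ^ k • 𝟙 (R.obj ⊗ W) :=
      ((tensorLeft R.obj).map_zsmul).trans (congrArg _ (MonoidalCategory.whiskerLeft_id _ _))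
    rw [h3, ← h4, hW]
    exact MonoidalPreadditive.whiskerLeft_zero
  have h5 : IsIso ((m ^ k • 𝟙 R.obj) ▷ W) := inferInstance
  rw [h2] at h5
  change IsZero (R.obj ⊗ W)
  exact IsZero.of_epi_eq_zero _ (rfl : (0 : R.obj ⊗ W ⟶ R.obj ⊗ W) = 0)

/-- The Bousfield classes of a Morava K-theory and of the Koszul object agree. -/
theorem acyclic_morava_iff (S : Susp T) {p : ℕ} [Fact p.Prime] (hp : p ≠ 2)
    {D : MUData T.C} (H : MUUniv (M.lineIso S.toSpaceFunctor) D)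
    {C : T.C} {i : 𝟙_ T.C ⟶ C} {δ : C ⟶ (𝟙_ T.C)⟦(1 : ℤ)⟧}
    (hC : Triangle.mk ((p : ℤ) • 𝟙 (𝟙_ T.C)) i δ ∈ distTriang T.C)
    {j : ℕ} (hj : 1 ≤ j) {R : RingSp T} (hR : St.IsMorava S R p j)
    (Dk : KosData D.P (p : ℤ) j (D.vs p)) (W : T.C) :
    Vale.Agent.P251.S.Acyclic R.obj W ↔ Vale.Agent.P251.S.Acyclic Dk.K W := by
  obtain ⟨j, rfl⟩ : ∃ m, j = m + 1 := ⟨j - 1, by omega⟩
  obtain ⟨_, o, hK⟩ := isMorava_of S R hR
  exact ⟨fun hW => Vale.Agent.P251.Z.kos_of_acyclic H hp hj hC o hK Dk hW,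
    fun hW => Vale.Agent.P251.Z.acyclic_of_kos H hj o hK Dk hW⟩

theorem zsmul_id_of_morava (S : Susp T) {p : ℕ} {j : ℕ} (hj : 1 ≤ j) {R : RingSp T}
    (hR : St.IsMorava S R p j) : (p : ℤ) • 𝟙 R.obj = 0 := by
  obtain ⟨j, rfl⟩ : ∃ m, j = m + 1 := ⟨j - 1, by omega⟩
  obtain ⟨_, o, hK⟩ := isMorava_of S R hR
  exact zsmul_id_of_unit hK.char

/-- **The library data attached to Morava K-theories of heights `≤ n`.** -/
theorem exists_model3 (S : Susp T) {p n : ℕ} [Fact p.Prime] (hp : p ≠ 2) (hn : 1 ≤ n)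
    (hMU : ∃ D : MUData T.C, MUUniv (M.lineIso S.toSpaceFunctor) D ∧ JCells D.R)
    (K : ℕ → RingSp T) (hK : ∀ i ≤ n, St.IsMorava S (K i) p i)
    {C : T.C} {i : 𝟙_ T.C ⟶ C} {δ : C ⟶ (𝟙_ T.C)⟦(1 : ℤ)⟧}
    (hC : Triangle.mk ((p : ℤ) • 𝟙 (𝟙_ T.C)) i δ ∈ distTriang T.C)
    {Z : T.C} (z : Hom T.one Z) (hz : St.IsLoc (K n).obj z) :
    ∃ (D : MUData T.C) (_ : JCells D.R) (Kf : KosFam D.P (p : ℤ) (D.vs p))
      (F : LocFunctor (Kf.at_ n).K) (_ : F.L.obj (𝟙_ T.C) ≅ Z),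
      ∀ j, 1 ≤ j → j ≤ n → ∀ W, Vale.Agent.P251.S.Acyclic (K j).obj W ↔
        Vale.Agent.P251.S.Acyclic (Kf.at_ j).K W := by
  have := locallySmall_self.{0} T.C
  obtain ⟨D, H, hJ⟩ := hMU
  obtain ⟨Kf⟩ := exists_kosFam D.P (p : ℤ) (D.vs p)
  obtain ⟨F⟩ := Vale.Agent.P251.Z.nonempty_locFunctor' (Kf.at_ n).K
  have h1 : ∀ j, 1 ≤ j → j ≤ n → ∀ W, Vale.Agent.P251.S.Acyclic (K j).obj W ↔
      Vale.Agent.P251.S.Acyclic (Kf.at_ j).K W := fun j hj hjn W =>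
    acyclic_morava_iff S hp H hC hj (hK j hjn) (Kf.at_ j) W
  obtain ⟨e⟩ := exists_iso_of_isLoc F (fun W hW => (h1 n hn le_rfl W).2 hW)
    (fun W hW => (h1 n hn le_rfl W).1 hW) ((isLoc_iff (K n).obj z).1 hz)
  exact ⟨D, hJ, Kf, F, e, h1⟩

section classE

variable (S : Susp T) {p n : ℕ} {K : ℕ → RingSp T} (hK : ∀ i ≤ n, St.IsMorava S (K i) p i)
  {E : T.C} {m : ℕ} (hE : St.IsClassE m K E)

theorem stAcyclic_iff (E W : T.C) : St.Acyclic E W ↔ Vale.Agent.P251.S.Acyclic E W :=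
  acyclic_iff_isZero E W

include hE

theorem acyclic_of_classE {W : T.C} (hW : Vale.Agent.P251.S.Acyclic E W) {j : ℕ} (hj : j < m) :
    Vale.Agent.P251.S.Acyclic (K j).obj W :=
  (stAcyclic_iff _ _).1 (((hE W).1 ((stAcyclic_iff _ _).2 hW)) j hj)

include hK

theorem classE_of_acyclic (hp : p ≠ 0) {W : T.C} (hW : ∃ k : ℕ, (p : ℤ) ^ k • 𝟙 W = 0)
    (h : ∀ j, 1 ≤ j → j < m → Vale.Agent.P251.S.Acyclic (K j).obj W) :
    Vale.Agent.P251.S.Acyclic E W := by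
  refine (stAcyclic_iff _ _).1 ((hE W).2 fun j hj => (stAcyclic_iff _ _).2 ?_)
  rcases Nat.eq_zero_or_pos j with rfl | hj0
  · obtain ⟨k, hk⟩ := hW
    have h0 : St.IsRational (K 0) := by
      have := hK 0 (Nat.zero_le _)
      simpa [St.IsMorava] using this
    exact acyclic_rational h0 (m := (p : ℤ)) (by exact_mod_cast hp) hk
  · exact h j hj0 hj

end classE

section tens

variable {p : ℕ} {C Z : T.C} {i : 𝟙_ T.C ⟶ C} {δ : C ⟶ (𝟙_ T.C)⟦(1 : ℤ)⟧}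
  (hC : Triangle.mk ((p : ℤ) • 𝟙 (𝟙_ T.C)) i δ ∈ distTriang T.C) {K : T.C}
  (F : LocFunctor K) (e : F.L.obj (𝟙_ T.C) ≅ Z)

include hC e

/-- `L (𝟙 ⊗ C) ≅ Z ⊗ C`. -/
theorem exists_tensIso : Nonempty (F.L.obj (𝟙_ T.C ⊗ C) ≅ Z ⊗ C) := by
  obtain ⟨d, hd⟩ := exists_tri_loc F hC (𝟙_ T.C)
  have h2 := tens_dist Z hC
  have h3 : Z ◁ ((p : ℤ) • 𝟙 (𝟙_ T.C)) = (p : ℤ) • 𝟙 (Z ⊗ 𝟙_ T.C) :=
    ((tensorLeft Z).map_zsmul).trans (congrArg _ (MonoidalCategory.whiskerLeft_id _ _))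
  let e' : F.L.obj (𝟙_ T.C) ≅ Z ⊗ 𝟙_ T.C := e ≪≫ (ρ_ Z).symm
  have h4 : ((p : ℤ) • 𝟙 (F.L.obj (𝟙_ T.C))) ≫ e'.hom = e'.hom ≫ (Z ◁ ((p : ℤ) • 𝟙 (𝟙_ T.C))) := by
    rw [h3, Preadditive.zsmul_comp, Category.id_comp, Preadditive.comp_zsmul, Category.comp_id]
  obtain ⟨f, hf1, hf2⟩ := complete_distinguished_triangle_morphism _ _ hd h2 e'.hom e'.hom h4
  have h5 : IsIso f := by
    refine isIso₃_of_isIso₁₂ (Triangle.homMk _ _ e'.hom e'.hom f h4 hf1 hf2) hd h2 ?_ ?_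
    · change IsIso e'.hom
      infer_instance
    · change IsIso e'.hom
      infer_instance
  exact ⟨@asIso _ _ _ _ f h5⟩

end tens

end Vale.Agent.P261.H273
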