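import Vale.Agent.P261.H273.Assembly3
import Vale.Agent.P261.H621.Main
import Vale.Agent.P261.H36.JCells
import Vale.Agent.P261.H36.CountTop
import Vale.Agent.P261.H681.CtNs
import Vale.Agent.P261.M.FracSt

/-!
# P261: proof of the countability criterion

`critT`: the criterion in the language of the library, from the files of H621, H36, H681.
-/

open CategoryTheory MonoidalCategory Limits Pretriangulated MonObj

set_option linter.unusedSectionVars false

namespace Vale.Agent.P261.H273

open Vale.Agent.P251 Vale.Agent.P251.T Vale.Agent.P251.S Vale.Agent.P251.I Vale.Agent.P251.M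
open Vale.Agent.P251.St Vale.Agent.P251.St.SHCat Vale.Agent.P261 Vale.Agent.P261.H621

theorem critT (T : SHCat) {p n : ℕ} [Fact p.Prime] (hn : 1 ≤ n)
    (hs : n ^ 2 + 1 < 2 * (p - 1)) : CritT T p n := by
  intro D hJ C i δ hC Kf F E FE hE1 hE2 t
  have hp2 := ne_two_of_sparse hn hs
  have hd := not_dvd_of_sparse hn hs
  have hH := cast_sparse (n := n) hs
  obtain ⟨k, rfl⟩ : ∃ k, n = k + 1 := ⟨n - 1, by omega⟩
  obtain ⟨U⟩ := exists_unitCof D.R
  have hB : BCells U := fun s => H36.B_cells U hJ s
  have h1 := kc_LC D Kf F hp2 hC hd U hB FE hE1 hE2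
    (fun s => H681.ctH_Ns D hp2 hC Kf s k (k + 1))
  refine ⟨h1.countable_iff t, fun h => ?_⟩
  exact H36.top_finite_of_countable D (Kf.at_ (k + 1)) F hp2 hn hC hd (by linarith) t

theorem exists_MU_cells {T : SHCat} (S : Susp T) :
    ∃ D : MUData T.C, MUUniv (M.lineIso S.toSpaceFunctor) D ∧ JCells D.R :=
  H36.MU_univ_cells S.toSpaceFunctor (M.lineIso S.toSpaceFunctor)

end Vale.Agent.P261.H273
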