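import Vale.Agent.P261.M.TopZ
import Vale.Agent.P261.H681.H0f
import Vale.Agent.P261.H273.Assembly

/-!
# P261: finiteness and vanishing of homotopy groups of `L_{K(n)} S` in the sparse range

* `finite_of_kill`: a group killed by `p ^ m` with finite `p`-torsion is finite;
* `tors_of_tri`: `Z -p→ Z → D`: the `p`-torsion of `π_t Z` is finite if `π_{t+1} D` is;
* `top0_fin`, `top0_zero`: `π_t (L (S/p))`, `t ≡ 0` modulo `2 (p - 1)`;
* `kill`, `zero_even`, `fg_zero`, `fin_one`, `zero_one`: consequences for `Z = L_{K(n)} S`.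
-/

open CategoryTheory MonoidalCategory Limits Pretriangulated

set_option linter.unusedSectionVars false

universe v u

namespace Vale.Agent.P261.H273

open Vale.Agent.P251 Vale.Agent.P251.T Vale.Agent.P251.S Vale.Agent.P251.I Vale.Agent.P251.M
open Vale.Agent.P261

section alg

variable {A : Type*} [AddCommGroup A] {p : ℕ}

theorem tors_finite (h1 : {x : A | p • x = 0}.Finite) (m : ℕ) : {x : A | p ^ m • x = 0}.Finite := by
  induction m with
  | zero =>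
    refine h1.subset fun x hx => ?_
    have h2 : p ^ 0 • x = 0 := hx
    rw [pow_zero, one_smul] at h2
    change p • x = 0
    rw [h2, smul_zero]
  | succ m ih =>
    refine Set.Finite.of_finite_fibers (fun x => p • x) (ih.subset ?_) fun y hy => ?_
    · rintro _ ⟨x, hx, rfl⟩
      change p ^ m • (p • x) = 0
      rw [smul_smul, ← pow_succ]
      exact hx
    · obtain ⟨x0, hx0, rfl⟩ := hy
      refine (h1.image fun z => x0 + z).subset ?_
      rintro x ⟨hx, hx'⟩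
      refine ⟨x - x0, ?_, by simp⟩
      have h2 : p • x = p • x0 := hx'
      change p • (x - x0) = 0
      rw [smul_sub, h2, sub_self]

theorem finite_of_kill (h1 : {x : A | p • x = 0}.Finite) {m : ℕ} (hm : ∀ x : A, p ^ m • x = 0) :
    Finite A := by
  refine Set.finite_univ_iff.1 ((tors_finite h1 m).subset fun x _ => hm x)

theorem zero_of_kill (h1 : ∀ x : A, p • x = 0 → x = 0) {m : ℕ} {x : A} (hm : p ^ m • x = 0) :
    x = 0 := by
  induction m with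
  | zero => simpa using hm
  | succ m ih =>
    refine ih (h1 _ ?_)
    rw [smul_smul, ← pow_succ']
    exact hm

theorem DComp.fg_of_finite [Fact p.Prime] (hA : DComp p A) [Finite A] : FG p A := by
  cases nonempty_fintype A
  exact hA.fg ⟨Finset.univ, fun x => ⟨x, Finset.mem_univ _, 0, by simp⟩⟩

end alg

section tri

variable {T : Type u} [Category.{v} T] [Preadditive T] [HasZeroObject T] [HasShift T ℤ]
  [∀ n : ℤ, (shiftFunctor T n).Additive] [Pretriangulated T]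
  {P Z D : T} {p : ℕ} {i : Z ⟶ D} {δ : D ⟶ Z⟦(1 : ℤ)⟧}
  (h : Triangle.mk ((p : ℤ) • 𝟙 Z) i δ ∈ distTriang T)

include h

/-- The `p`-torsion of `Hom (P⟦t⟧, Z)` comes from `Hom (P⟦t+1⟧, D)`. -/
theorem tors_lift {t t' : ℤ} (ht : t + 1 = t') (x : P⟦t⟧ ⟶ Z) (hx : p • x = 0) :
    ∃ g : P⟦t'⟧ ⟶ D, sh (P := P) (Y := Z) t 1 t' ht x = g ≫ δ := by
  have h2 : (sh (P := P) (Y := Z) t 1 t' ht x) ≫ ((p : ℤ) • 𝟙 Z)⟦(1 : ℤ)⟧' = 0 := by
    rw [Functor.map_zsmul, CategoryTheory.Functor.map_id, Preadditive.comp_zsmul,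
      Category.comp_id, natCast_zsmul, ← map_nsmul, hx, map_zero]
  exact Triangle.coyoneda_exact₁ _ h _ h2

theorem tors_of_tri {t t' : ℤ} (ht : t + 1 = t') (hf : Finite (P⟦t'⟧ ⟶ D)) :
    {x : P⟦t⟧ ⟶ Z | p • x = 0}.Finite := by
  have h1 : (Set.range fun g : P⟦t'⟧ ⟶ D => g ≫ δ).Finite := Set.finite_range _
  refine (h1.preimage (f := sh (P := P) (Y := Z) t 1 t' ht)
    (sh (P := P) (Y := Z) t 1 t' ht).injective.injOn).subset fun x hx => ?_
  obtain ⟨g, hg⟩ := tors_lift h ht x hx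
  exact ⟨g, hg.symm⟩

theorem tors_zero_of_tri {t t' : ℤ} (ht : t + 1 = t') (h1 : ∀ x : P⟦t'⟧ ⟶ D, x = 0)
    (x : P⟦t⟧ ⟶ Z) (hx : p • x = 0) : x = 0 := by
  obtain ⟨g, hg⟩ := tors_lift h ht x hx
  rw [h1 g, zero_comp] at hg
  exact (sh (P := P) (Y := Z) t 1 t' ht).injective (hg.trans (map_zero _).symm)

end tri

section top

variable {T : Type u} [Category.{v} T] [Preadditive T] [HasZeroObject T]
    [HasShift T ℤ] [∀ n : ℤ, (shiftFunctor T n).Additive] [Pretriangulated T] [IsTriangulated T]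
    [MonoidalCategory T] [SymmetricCategory T] [TensorTriangulated T] [MonoidalClosed T]
    [HasCoproducts.{0} T] [HasProducts.{0} T] [StableCat T]

variable (D : I.MUData T) {p h : ℕ} [hp : Fact p.Prime]
  {C : T} {i : 𝟙_ T ⟶ C} {δ : C ⟶ (𝟙_ T)⟦(1 : ℤ)⟧}
  (Dk : KosData D.P (p : ℤ) h (D.vs p)) (F : LocFunctor Dk.K)

variable (hp2 : p ≠ 2) (hh : 1 ≤ h)
  (hC : Triangle.mk ((p : ℤ) • 𝟙 (𝟙_ T)) i δ ∈ distTriang T) (hd : ¬ (p - 1) ∣ h)
  (hH : ((h * h : ℕ) : ℤ) < 2 * ((p : ℤ) - 1))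

include hp2 hh hC hd hH

/-- In degree `2 (p - 1) c` only `s = 0` contributes. -/
theorem s_eq_zero {c w : ℤ} {s : ℕ} (hs : s ≤ h * h)
    (hw : 2 * ((p : ℤ) - 1) * c + s = 2 * w) (hd : ((p : ℤ) - 1) ∣ w) : s = 0 := by
  obtain ⟨d, rfl⟩ := hd
  have hs' : (s : ℤ) ≤ ((h * h : ℕ) : ℤ) := by exact_mod_cast hs
  have hs0 : (0 : ℤ) ≤ (s : ℤ) := Nat.cast_nonneg _
  have h1 : 2 * ((p : ℤ) - 1) * (d - c) = s := by
    rw [mul_sub]; linarith
  have h2 : d - c < 1 := by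
    by_contra h3
    have := mul_le_mul_of_nonneg_left (not_lt.1 h3)
      (by linarith : (0 : ℤ) ≤ 2 * ((p : ℤ) - 1))
    linarith
  have h3 : 0 ≤ d - c := by
    by_contra h4
    have h5 : d - c ≤ -1 := by omega
    have := mul_le_mul_of_nonneg_left h5 (by linarith : (0 : ℤ) ≤ 2 * ((p : ℤ) - 1))
    linarith
  have h4 : d - c = 0 := by omega
  rw [h4, mul_zero] at h1
  exact_mod_cast h1.symm

/-- `π_{2 (p - 1) c} (L (S/p))` is finite. -/
theorem top0_fin (c : ℤ) :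
    Finite ((𝟙_ T)⟦2 * ((p : ℤ) - 1) * c⟧ ⟶ F.L.obj (𝟙_ T ⊗ C)) := by
  refine top_fin_of D Dk F hp2 hh hC hd _ fun w s h1 h2 h3 => ?_
  obtain rfl := s_eq_zero hp2 hh hC ‹_› hH h2 h1 h3
  exact H681.H0_fin hp2 (by omega) w

/-- `π_{2 (p - 1) c} (L (S/p)) = 0` for `c < 0` and `h ≥ 2`. -/
theorem top0_zero (hh2 : 2 ≤ h) {c : ℤ} (hc : c < 0)
    (x : (𝟙_ T)⟦2 * ((p : ℤ) - 1) * c⟧ ⟶ F.L.obj (𝟙_ T ⊗ C)) : x = 0 := by
  obtain ⟨U⟩ := exists_unitCof D.R
  obtain ⟨y, rfl⟩ := (eD0 D U C F _).surjective x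
  have hp0 : (0 : ℤ) < (p : ℤ) - 1 := by
    have : (0 : ℤ) ≤ ((h * h : ℕ) : ℤ) := Nat.cast_nonneg _
    linarith
  rw [Couple.D_eq_zero (cpl_conv D Dk F hp2 hh hC hd U) (fun s => ?_) y, map_zero]
  by_cases hs : s ≤ h * h ∧ 2 * ((p : ℤ) - 1) ∣ 2 * ((p : ℤ) - 1) * c + s
  · obtain ⟨h1, a, ha⟩ := hs
    have hw : 2 * ((p : ℤ) - 1) * c + (s : ℤ) = 2 * (((p : ℤ) - 1) * a) := by rw [ha]; ring
    obtain rfl := s_eq_zero hp2 hh hC ‹_› hH h1 hw (dvd_mul_right _ _)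
    have hac : a = c := by
      have h3 : 2 * ((p : ℤ) - 1) * c = 2 * ((p : ℤ) - 1) * a := by
        rw [← ha, Nat.cast_zero, add_zero]
      exact (mul_left_cancel₀ (by positivity) h3).symm
    refine ((grOut D U hp2 hh hC Dk F).model _).EZ_le_of hw ?_
    intro z hz
    rw [H681.H0_van hh2 (w := ((p : ℤ) - 1) * a) (by rw [hac]; exact mul_neg_of_pos_of_neg hp0 hc)
      z hz]
    exact AddSubgroup.zero_mem _
  · exact cpl_sparse D Dk F hp2 hh hC hd U s _ hs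

end top

end Vale.Agent.P261.H273
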